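import Vale.Agent.P076.Bdl.All

/-! Cubes with sides at most one and divergent sum of volumes can be placed such that every point
lies in infinitely many of them. -/

open Filter Topology

namespace Vale.Agent.P076

variable {n : ℕ}

/-- `2 ⌊y⌋ ≤ ⌊2 y⌋ ≤ 2 ⌊y⌋ + 1` -/
lemma floor_two_mul (y : ℝ) : ⌊2 * y⌋ = 2 * ⌊y⌋ ∨ ⌊2 * y⌋ = 2 * ⌊y⌋ + 1 := by
  have h1 : 2 * ⌊y⌋ ≤ ⌊2 * y⌋ := by
    rw [Int.le_floor]
    push_cast
    have := Int.floor_le y
    linarith
  have h2 : ⌊2 * y⌋ < 2 * ⌊y⌋ + 2 := by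
    rw [Int.floor_lt]
    push_cast
    have := Int.lt_floor_add_one y
    linarith
  omega

/-- Dyadic cubes, finitely many, whose volumes add up to the volume of finitely many dyadic cells
of side `2 ^ (-j)`, can be placed such that they cover these cells. -/
theorem finite_dyadic_cover (m : ℕ → ℕ) : ∀ (N M j : ℕ) (S : Finset ℕ) (Q : Finset (Fin n → ℤ)),
    M + S.card = N → (∀ i ∈ S, j ≤ m i ∧ m i ≤ j + M) →
    Q.card * 2 ^ (n * M) ≤ ∑ i ∈ S, 2 ^ (n * (j + M - m i)) →
    ∃ c : ℕ → E n, ∀ x : E n, (fun k => ⌊(2 : ℝ) ^ j * x k⌋) ∈ Q →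
      ∃ i ∈ S, x ∈ cube (c i) ((1 / 2) ^ m i) := by
  classical
  intro N
  induction N with
  | zero =>
    intro M j S Q hN hS hQ
    have hS0 : S = ∅ := Finset.card_eq_zero.1 (by omega)
    subst hS0
    rw [Finset.sum_empty] at hQ
    have hQ0 : Q.card = 0 := by
      rcases Nat.eq_zero_or_pos Q.card with h | h
      · exact h
      · have := Nat.mul_pos h (pow_pos (by norm_num : 0 < 2) (n * M))
        omega
    rw [Finset.card_eq_zero] at hQ0
    subst hQ0
    exact ⟨fun _ => 0, fun x hx => absurd hx (Finset.notMem_empty _)⟩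
  | succ N ih =>
    intro M j S Q hN hS hQ
    rcases Q.eq_empty_or_nonempty with hQ0 | ⟨q, hq⟩
    · subst hQ0
      exact ⟨fun _ => 0, fun x hx => absurd hx (Finset.notMem_empty _)⟩
    by_cases h : ∃ i ∈ S, m i = j
    · obtain ⟨i₀, hi₀, hmi⟩ := h
      obtain ⟨c, hc⟩ := ih M j (S.erase i₀) (Q.erase q)
        (by rw [Finset.card_erase_of_mem hi₀]
            have := Finset.card_pos.2 ⟨i₀, hi₀⟩
            omega)
        (fun i hi => hS i (Finset.mem_of_mem_erase hi))
        (by
          rw [← Finset.add_sum_erase S _ hi₀, hmi, Nat.add_sub_cancel_left] at hQ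
          have h1 := Finset.card_pos.2 ⟨q, hq⟩
          rw [Finset.card_erase_of_mem hq, Nat.sub_mul, one_mul]
          omega)
      refine ⟨Function.update c i₀ (WithLp.toLp 2 fun k => (q k : ℝ) * (1 / 2) ^ j), ?_⟩
      intro x hx
      by_cases hxq : (fun k => ⌊(2 : ℝ) ^ j * x k⌋) = q
      · refine ⟨i₀, hi₀, ?_⟩
        rw [Function.update_self, hmi]
        intro k
        have h1 : ⌊(2 : ℝ) ^ j * x k⌋ = q k := congrFun hxq k
        rw [Int.floor_eq_iff] at h1
        have h2 : (0 : ℝ) < (1 / 2) ^ j := by positivity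
        have h3 : (2 : ℝ) ^ j * x k * (1 / 2) ^ j = x k := by
          rw [mul_right_comm, ← mul_pow]
          norm_num
        constructor
        · show (q k : ℝ) * (1 / 2) ^ j ≤ x k
          calc (q k : ℝ) * (1 / 2) ^ j ≤ (2 : ℝ) ^ j * x k * (1 / 2) ^ j :=
                mul_le_mul_of_nonneg_right h1.1 h2.le
            _ = x k := h3
        · show x k ≤ (q k : ℝ) * (1 / 2) ^ j + (1 / 2) ^ j
          calc x k = (2 : ℝ) ^ j * x k * (1 / 2) ^ j := h3.symm
            _ ≤ ((q k : ℝ) + 1) * (1 / 2) ^ j := mul_le_mul_of_nonneg_right h1.2.le h2.le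
            _ = _ := by ring
      · obtain ⟨i, hi, hxi⟩ := hc x (Finset.mem_erase.2 ⟨hxq, hx⟩)
        refine ⟨i, Finset.mem_of_mem_erase hi, ?_⟩
        rwa [Function.update_of_ne (Finset.ne_of_mem_erase hi)]
    · push Not at h
      rcases Nat.eq_zero_or_pos M with hM | hM
      · exfalso
        subst hM
        have hS0 : S = ∅ := by
          rw [Finset.eq_empty_iff_forall_notMem]
          intro i hi
          have := hS i hi
          exact h i hi (by omega)
        subst hS0
        rw [Finset.sum_empty, mul_zero, pow_zero, mul_one] at hQ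
        have := Finset.card_pos.2 ⟨q, hq⟩
        omega
      · obtain ⟨M, rfl⟩ : ∃ M', M = M' + 1 := ⟨M - 1, by omega⟩
        set Q' : Finset (Fin n → ℤ) :=
          (Q ×ˢ (Finset.univ : Finset (Fin n → Bool))).image
            (fun p k => 2 * p.1 k + if p.2 k then 1 else 0) with hQ'
        have hcard : Q'.card ≤ 2 ^ n * Q.card := by
          refine Finset.card_image_le.trans ?_
          rw [Finset.card_product, Finset.card_univ, Fintype.card_fun, Fintype.card_bool,
            Fintype.card_fin, mul_comm]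
        obtain ⟨c, hc⟩ := ih M (j + 1) S Q' (by omega)
          (fun i hi => by
            have h1 := hS i hi
            have h2 := h i hi
            omega)
          (by
            have e : ∀ i, j + 1 + M - m i = j + (M + 1) - m i := fun i => by omega
            simp only [e]
            refine le_trans ?_ hQ
            calc Q'.card * 2 ^ (n * M) ≤ 2 ^ n * Q.card * 2 ^ (n * M) :=
                  Nat.mul_le_mul_right _ hcard
              _ = Q.card * 2 ^ (n * (M + 1)) := by
                  rw [Nat.mul_add, mul_one, pow_add]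
                  ring)
        refine ⟨c, fun x hx => hc x ?_⟩
        rw [hQ', Finset.mem_image]
        refine ⟨(fun k => ⌊(2 : ℝ) ^ j * x k⌋,
          fun k => decide (⌊(2 : ℝ) ^ (j + 1) * x k⌋ = 2 * ⌊(2 : ℝ) ^ j * x k⌋ + 1)), ?_, ?_⟩
        · rw [Finset.mem_product]
          exact ⟨hx, Finset.mem_univ _⟩
        · funext k
          have e : (2 : ℝ) ^ (j + 1) * x k = 2 * ((2 : ℝ) ^ j * x k) := by ring
          simp only [e]
          rcases floor_two_mul ((2 : ℝ) ^ j * x k) with h1 | h1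
          · rw [h1]
            simp
          · rw [h1]
            simp

theorem exists_cover_all {n : ℕ} (hn : 1 ≤ n) (r : ℕ → ℝ) (hr0 : ∀ i, 0 < r i)
    (hr1 : ∀ i, r i ≤ 1) (hsum : ¬ Summable fun i => r i ^ n) :
    ∃ c : ℕ → E n, ∀ x : E n, ∃ᶠ i in atTop, x ∈ cube (c i) (r i) := by
  classical
  have hm : ∀ i, ∃ m : ℕ, (1 / 2 : ℝ) ^ m ≤ r i ∧ r i ≤ 2 * (1 / 2) ^ m := by
    intro i
    obtain ⟨m, h1, h2⟩ := exists_nat_pow_near_of_lt_one (hr0 i) (hr1 i)
      (by norm_num : (0 : ℝ) < 1 / 2) (by norm_num : (1 / 2 : ℝ) < 1)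
    refine ⟨m + 1, h1.le, h2.trans (le_of_eq ?_)⟩
    rw [pow_succ]
    ring
  choose m hm1 hm2 using hm
  have hdiv : ∀ i₀ : ℕ, Tendsto (fun J => ∑ j ∈ Finset.range J, ((1 / 2 : ℝ) ^ m (i₀ + j)) ^ n)
      atTop atTop := by
    intro i₀
    refine (not_summable_iff_tendsto_nat_atTop_of_nonneg
      (fun j => by positivity)).1 fun hs => hsum ?_
    have h1 : Summable fun i => ((1 / 2 : ℝ) ^ m i) ^ n := by
      have := (summable_nat_add_iff (f := fun i => ((1 / 2 : ℝ) ^ m i) ^ n) i₀).1
        (by simpa only [add_comm] using hs)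
      exact this
    refine Summable.of_nonneg_of_le (fun i => pow_nonneg (hr0 i).le n) (fun i => ?_)
      (h1.mul_left (2 ^ n))
    rw [← mul_pow]
    exact pow_le_pow_left₀ (hr0 i).le (hm2 i) n
  have H : ∀ N i₀ : ℕ, ∃ i₁ > i₀, ∃ c : ℕ → E n, ∀ x : E n, (∀ k, |x k| ≤ N) →
      ∃ i, i₀ ≤ i ∧ i < i₁ ∧ x ∈ cube (c i) (r i) := by
    intro N i₀
    set Q : Finset (Fin n → ℤ) := Fintype.piFinset fun _ => Finset.Icc (-(N : ℤ)) N with hQ
    obtain ⟨J, hJ1, hJ⟩ := ((eventually_ge_atTop 1).and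
      ((hdiv i₀).eventually (eventually_ge_atTop (Q.card : ℝ)))).exists
    set S : Finset ℕ := Finset.Ico i₀ (i₀ + J) with hS
    set M : ℕ := S.sup m with hM
    have hmM : ∀ i ∈ S, m i ≤ M := fun i hi => Finset.le_sup hi
    obtain ⟨c, hc⟩ := finite_dyadic_cover (n := n) m (M + S.card) M 0 S Q rfl
      (fun i hi => ⟨Nat.zero_le _, by have := hmM i hi; omega⟩)
      (by
        have h1 : (Q.card : ℝ) * 2 ^ (n * M) ≤ ∑ i ∈ S, (2 : ℝ) ^ (n * (0 + M - m i)) := by
          have h2 : ∑ j ∈ Finset.range J, ((1 / 2 : ℝ) ^ m (i₀ + j)) ^ n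
              = ∑ i ∈ S, ((1 / 2 : ℝ) ^ m i) ^ n := by
            rw [hS, Finset.sum_Ico_eq_sum_range, Nat.add_sub_cancel_left]
          rw [h2] at hJ
          calc (Q.card : ℝ) * 2 ^ (n * M)
              ≤ (∑ i ∈ S, ((1 / 2 : ℝ) ^ m i) ^ n) * 2 ^ (n * M) :=
                mul_le_mul_of_nonneg_right hJ (by positivity)
            _ = ∑ i ∈ S, (2 : ℝ) ^ (n * (0 + M - m i)) := by
                rw [Finset.sum_mul]
                refine Finset.sum_congr rfl fun i hi => ?_
                have h3 := hmM i hi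
                have h4 : n * M = n * m i + n * (0 + M - m i) := by
                  rw [← Nat.mul_add]
                  congr 1
                  omega
                rw [h4, pow_add, ← pow_mul, ← mul_assoc, mul_comm (m i) n, ← mul_pow]
                norm_num
        exact_mod_cast h1)
    refine ⟨i₀ + J, by omega, c, fun x hx => ?_⟩
    obtain ⟨i, hi, hxi⟩ := hc x (by
      rw [hQ, Fintype.mem_piFinset]
      intro k
      have h1 := abs_le.1 (hx k)
      rw [pow_zero, one_mul, Finset.mem_Icc]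
      constructor
      · rw [Int.le_floor]
        push_cast
        exact h1.1
      · have : ⌊x k⌋ ≤ ⌊(N : ℝ)⌋ := Int.floor_le_floor h1.2
        simpa using this)
    rw [hS, Finset.mem_Ico] at hi
    refine ⟨i, hi.1, hi.2, fun k => ?_⟩
    have h1 := hxi k
    exact ⟨h1.1, h1.2.trans (by have := hm1 i; linarith)⟩
  choose i₁ hi₁ c hc using H
  let I : ℕ → ℕ := fun N => Nat.rec 0 (fun N i => i₁ N i) N
  have hI0 : I 0 = 0 := rfl
  have hIs : ∀ N, I (N + 1) = i₁ N (I N) := fun N => rfl
  have hmono : StrictMono I := strictMono_nat_of_lt_succ fun N => by rw [hIs]; exact hi₁ N _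
  have hstage : ∀ i, ∃ N, I N ≤ i ∧ i < I (N + 1) := by
    intro i
    have hex : ∃ N, i < I (N + 1) := ⟨i, by have := hmono.id_le (i + 1); simp at this; omega⟩
    refine ⟨Nat.find hex, ?_, Nat.find_spec hex⟩
    rcases Nat.eq_zero_or_pos (Nat.find hex) with h | h
    · rw [h, hI0]; omega
    · have := Nat.find_min hex (m := Nat.find hex - 1) (by omega)
      rw [Nat.sub_add_cancel h] at this
      omega
  choose st hst1 hst2 using hstage
  have hst : ∀ N i, I N ≤ i → i < I (N + 1) → st i = N := by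
    intro N i h1 h2
    have h3 : I (st i) < I (N + 1) := (hst1 i).trans_lt h2
    have h4 : I N < I (st i + 1) := h1.trans_lt (hst2 i)
    have h5 : st i < N + 1 := hmono.lt_iff_lt.1 h3
    have h6 : N < st i + 1 := hmono.lt_iff_lt.1 h4
    omega
  refine ⟨fun i => c (st i) (I (st i)) i, fun x => ?_⟩
  rw [frequently_atTop]
  intro i₀
  obtain ⟨N, hN1, hN2⟩ : ∃ N : ℕ, i₀ ≤ N ∧ ∀ k, |x k| ≤ N := by
    refine ⟨max i₀ ⌈‖x‖⌉₊, le_max_left _ _, fun k => ?_⟩
    have h2 : |x k| ≤ ‖x‖ := by
      have := PiLp.norm_apply_le x k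
      rwa [Real.norm_eq_abs] at this
    refine h2.trans ((Nat.le_ceil _).trans ?_)
    exact_mod_cast le_max_right _ _
  obtain ⟨i, h1, h2, h3⟩ := hc N (I N) x hN2
  refine ⟨i, ?_, ?_⟩
  · have := hmono.id_le N
    simp only [id] at this
    exact hN1.trans (this.trans h1)
  · show x ∈ cube (c (st i) (I (st i)) i) (r i)
    rwa [hst N i h1 h2]

end Vale.Agent.P076
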